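import Vale.Agent.P275DP.Loc
import Vale.Agent.P281Z.An.Reg
import Vale.Agent.P275FD.Defs

/-!
# P275, block DIMP (helper93): the singular part has smaller dimension
-/

open scoped Manifold ContDiff Topology
open Set Filter
open Vale.Agent.P272.K Vale.Agent.P277Z.Slc Vale.Agent.P277.H762 Vale.Agent.P281Z
open Vale.Agent.P281Z.Ana

namespace Vale.Agent.P275DP

variable {n d k : ℕ} {W : Type} [TopologicalSpace W] [ChartedSpace (Cm n) W] {M : Set W}
  {e : Chart n W} {y : W}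

theorem lc_man [IsManifold 𝓘(ℂ, Cm n) ω W] (h : SubM n d M) (hy : y ∈ M) (he : At e y) :
    LC (d + 1) (e y) (e.symm ⁻¹' M) ∧ (LC (k + 1) (e y) (e.symm ⁻¹' M) → d ≤ k) := by
  obtain ⟨c, g, h1, h2, h3⟩ := h y hy
  obtain ⟨Φ, P, k0, k1, -, k3⟩ := h2.par (d := d) (by simpa [add_comm] using h1) he
  have h4 := ev_symm he h3
  have z : ∀ w, (∀ a, g a (e.symm w) = 0) → Φ w = (0, P w) := fun w a =>
    (k1 w).trans (Prod.ext (funext a) rfl)
  have z0 := z _ (h4.self_of_nhds.1 (by rwa [e.left_inv he.2]))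
  have t : (0, P (e y)) ∈ Φ.target := z0 ▸ Φ.map_source k0
  have a : AnalyticAt ℂ (fun s => Φ.symm (0, s)) (P (e y)) :=
    (k3 _ t).comp_of_eq (analyticAt_const.prod analyticAt_id) rfl
  have g0 : Φ.symm (0, P (e y)) = e y := by rw [← z0, Φ.left_inv k0]
  refine ⟨LC.ret (S := univ) P.continuous.continuousAt a ?_ ⟨univ, univ_mem, fun _ => univ,
    fun _ => id, fun _ => isOpen_univ, fun _ _ _ => analyticAt_id, fun w _ =>
      mem_iUnion.2 ⟨0, w, trivial, rfl⟩⟩, fun H => ?_⟩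
  · filter_upwards [h4, Φ.open_source.mem_nhds k0] with w b c hw
    exact ⟨trivial, by rw [← z w (b.1 hw), Φ.left_inv c]⟩
  refine (Module.finrank_fin_fun ℂ).ge.trans ((LC.ret (T := univ) a.continuousAt
    (P.analyticAt _) ?_ (g0.symm ▸ H)).rank univ_mem)
  filter_upwards [a.continuousAt.eventually (g0.symm ▸ h4),
    (Continuous.prodMk_right 0).continuousAt.eventually (Φ.open_target.mem_nhds t)] with s b c _
  have := (k1 _).symm.trans (Φ.right_inv c)
  exact ⟨b.2 (congrFun (congrArg Prod.fst this)), congrArg Prod.snd this⟩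

theorem dimp : P275FD.DIMP := by
  intro n W _ _ _ _ _ A r hA hc
  obtain ⟨B, h1, h2, h3, h4⟩ := reg n W A hA
  refine ⟨B (r + 1), An.isClosed (h1 _), h2 _, fun e he => cl_of_local (k := r + 1) ?_, h3 _⟩
  rintro _ ⟨x, hx, rfl⟩
  have tg : ∀ᶠ z in 𝓝 (e x), z ∈ e.target := e.open_target.mem_nhds (e.map_source hx.2)
  refine (lc_bad (T := e.symm ⁻¹' B (r + 1)) (d := fun i : Fin (n + 1) => i)
    (AnAt.chart (hA x) ⟨he, hx.2⟩) (fun i => AnAt.chart (h1 i x) ⟨he, hx.2⟩) ?_ (fun i => ?_)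
    ⟨_, tg, (hc e he).mono fun z a => ⟨_, ⟨a.2, e.map_target a.1⟩, e.right_inv a.1⟩⟩
    fun i hi => by rw [hi]).mono (.of_forall ?_)
  · filter_upwards [tg] with z a b
    obtain ⟨i, c, k⟩ := mem_iUnion₂.1 (h4.le b)
    exact ⟨⟨i, Finset.mem_range.1 c⟩, e.right_inv a ▸ (closure_chart ⟨he, e.map_target a⟩ _).2 k⟩
  · filter_upwards [tg] with z a b
    have := lc_man (k := r + 1) (h3 i) b ⟨he, e.map_target a⟩
    rw [e.right_inv a] at this
    exact ⟨this.1, fun c => this.2 (c.mono (.of_forall fun _ k => k.1))⟩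
  · rintro _ ⟨z, a, rfl⟩
    simpa only [mem_inter_iff, mem_preimage, e.left_inv a.2] using ⟨h2 _ a.1, a.1⟩

end Vale.Agent.P275DP
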