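import Vale.Agent.P281Z.An.Basic
import Vale.Agent.P277Z.Pj.Prj1

/-!
# P275, block DIMP (helper93): proper analytic subsets of prime germs have smaller dimension
-/

open scoped Topology
open Set Filter Metric Polynomial
open Vale.Agent.P272.K Vale.Agent.P277Z.Oka Vale.Agent.P277.H762 Vale.Agent.P281Z.Ana

noncomputable section

namespace Vale.Agent.P275DP

variable {E E' : Type} [NormedAddCommGroup E] [NormedSpace ℂ E] [NormedAddCommGroup E']
  [NormedSpace ℂ E'] {k m : ℕ} {S T : Set E} {x : E}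

/-- dimension less than `k` -/
def Cl : ℕ → Set E → Prop
  | 0, S => S = ∅
  | k + 1, S => Cv k S

theorem Cl.mono (h : Cl k S) (hT : T ⊆ S) : Cl k T := by
  cases k
  exacts [subset_eq_empty hT h, Cv.mono h hT]

theorem cl_iUnion {κ : Type} [Countable κ] {T : κ → Set E} (h : ∀ i, Cl k (T i)) :
    Cl k (⋃ i, T i) := by
  cases k
  exacts [iUnion_eq_empty.2 h, cv_iUnion h]

theorem Cl.union (h : Cl k S) (h' : Cl k T) : Cl k (S ∪ T) := by
  rw [union_eq_iUnion]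
  exact cl_iUnion fun b => by cases b <;> assumption

theorem Cl.image {U : Set E} (h : Cl k S) (hU : IsOpen U) (hS : S ⊆ U) {F : E → E'}
    (hF : ∀ z ∈ U, AnalyticAt ℂ F z) : Cl k (F '' S) := by
  cases k
  exacts [image_eq_empty.2 h, Cv.image h hU hS hF]

theorem Cl.le (h : Cl k S) (hm : k ≤ m) : Cl m S := by
  induction hm with
  | refl => exact h
  | @step m _ ih =>
    cases m
    exacts [(ih : S = ∅) ▸ cv_empty, Cv.succ ih]

/-- dimension less than `k` near `x` -/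
def LC (k : ℕ) (x : E) (S : Set E) : Prop := ∃ N ∈ 𝓝 x, Cl k (N ∩ S)

theorem LC.mono (h : LC k x S) (hT : ∀ᶠ y in 𝓝 x, y ∈ T → y ∈ S) : LC k x T :=
  let ⟨_, a, b⟩ := h
  ⟨_, inter_mem a hT, b.mono fun _ c => ⟨c.1.1, c.1.2 c.2⟩⟩

theorem LC.le (h : LC k x S) (hm : k ≤ m) : LC m x S := h.imp fun _ a => ⟨a.1, a.2.le hm⟩

theorem lc_iUnion {κ : Type} [Finite κ] {T : κ → Set E} (h : ∀ i, LC k x (T i)) :
    LC k x (⋃ i, T i) := by
  choose N a b using h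
  exact ⟨_, iInter_mem.2 a, (cl_iUnion b).mono fun y c => let ⟨i, d⟩ := mem_iUnion.1 c.2
    mem_iUnion.2 ⟨i, mem_iInter.1 c.1 i, d⟩⟩

theorem LC.union (h : LC k x S) (h' : LC k x T) : LC k x (S ∪ T) := by
  rw [union_eq_iUnion]
  exact lc_iUnion fun b => by cases b <;> assumption

theorem LC.near (h : LC k x S) : ∀ᶠ y in 𝓝 x, LC k y S :=
  let ⟨N, a, b⟩ := h
  (eventually_mem_nhds_iff.2 a).mono fun _ c => ⟨N, c, b⟩

theorem cl_of_local [SecondCountableTopology E] (h : ∀ x ∈ S, LC k x S) : Cl k S := by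
  cases k
  · exact eq_empty_of_forall_notMem fun x hx => let ⟨_, a, b⟩ := h x hx
      (eq_empty_iff_forall_notMem.1 b x) ⟨mem_of_mem_nhds a, hx⟩
  · exact cv_of_local h

theorem lc_of_near [SecondCountableTopology E] (h : ∀ᶠ y in 𝓝 x, y ∈ S → LC k y S) : LC k x S :=
  ⟨_, h, cl_of_local fun _ a => (a.1 a.2).mono (.of_forall fun _ b => b.2)⟩

theorem LC.ret [FiniteDimensional ℂ E'] {Φ : E' → E} {Ψ : E → E'} {z : E'} {T : Set E'}
    (hΦ : ContinuousAt Φ z) (hΨ : AnalyticAt ℂ Ψ (Φ z))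
    (e : ∀ᶠ w in 𝓝 z, w ∈ T → Φ w ∈ S ∧ Ψ (Φ w) = w) (h : LC k (Φ z) S) : LC k z T := by
  obtain ⟨N, a, b⟩ := h
  have := FiniteDimensional.complete ℂ E'
  obtain ⟨U, h1, h2, h3⟩ := _root_.mem_nhds_iff.1 (inter_mem a hΨ.eventually_analyticAt)
  exact ⟨_, inter_mem (hΦ (h2.mem_nhds h3)) e, ((b.mono (T := U ∩ S) fun y c =>
    ⟨(h1 c.1).1, c.2⟩).image h2 inter_subset_left fun y c => (h1 c).2).mono fun w c =>
      ⟨Φ w, ⟨c.1.1, (c.1.2 c.2).1⟩, (c.1.2 c.2).2⟩⟩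

theorem LC.pre [FiniteDimensional ℂ E'] {Φ : E' → E} {Ψ : E → E'} {z : E'} (hΦ : ContinuousAt Φ z)
    (hΨ : AnalyticAt ℂ Ψ (Φ z)) (e : ∀ᶠ w in 𝓝 z, Ψ (Φ w) = w) (h : LC k (Φ z) S) :
    LC k z (Φ ⁻¹' S) := h.ret hΦ hΨ (e.mono fun _ a b => ⟨b, a⟩)

section fin

variable [FiniteDimensional ℂ E]

theorem cl_zs {D : Set E} {J : E → ℂ} (hD : IsOpen D) (hJ : ∀ p ∈ D, AnalyticAt ℂ J p)
    (hne : ∀ p ∈ D, ¬ ∀ᶠ q in 𝓝 p, J q = 0) (hk : Module.finrank ℂ E = k) :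
    Cl k {p | p ∈ D ∧ J p = 0} := by
  cases k with
  | zero =>
    have := Module.finrank_zero_iff.1 hk
    exact eq_empty_of_forall_notMem fun p hp =>
      hne p hp.1 (.of_forall fun q => Subsingleton.elim p q ▸ hp.2)
  | succ k =>
    let L : Cm (k + 1) ≃L[ℂ] E := ContinuousLinearEquiv.ofFinrankEq (by simp [hk])
    refine ((P277Z.Pj.H38.cv_zs (J := fun p => J (L p)) (hD.preimage L.continuous)
      (fun p hp => (hJ _ hp).comp (L.analyticAt p)) fun p hp e => hne _ hp ?_).image isOpen_univ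
      (subset_univ _) fun z _ => L.analyticAt z).mono fun p hp =>
        ⟨L.symm p, by simpa using hp, by simp⟩
    simpa using (L.symm.continuous.tendsto' (L p) p (by simp)).eventually e

theorem lc_zero {f : E → ℂ} (hf : AnalyticAt ℂ f x) (h : ¬ ∀ᶠ y in 𝓝 x, f y = 0) :
    LC (Module.finrank ℂ E) x {y | f y = 0} := by
  obtain ⟨r, hr, hb⟩ := Metric.eventually_nhds_iff_ball.1 hf.eventually_analyticAt
  exact ⟨_, ball_mem_nhds x hr, cl_zs isOpen_ball hb (fun p hp e => h (eventually_of_mem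
    (ball_mem_nhds x hr) (AnalyticOnNhd.eqOn_zero_of_preconnected_of_eventuallyEq_zero hb
      (convex_ball _ _).isPreconnected hp e))) rfl⟩

theorem LC.rank (h : LC (k + 1) x S) (hS : S ∈ 𝓝 x) : Module.finrank ℂ E ≤ k :=
  let ⟨_, a, b⟩ := h
  not_lt.1 fun c => not_cv_nhds c (inter_mem a hS) b

end fin

theorem Cl.lift (h : Cl k S) {D : Set (ℂ × E)} {F : ℂ × E → ℂ} (hD : IsOpen D)
    (hF : ∀ z ∈ D, AnalyticAt ℂ F z) (hne : ∀ z ∈ D, ¬ ∀ᶠ s in 𝓝 z.1, F (s, z.2) = 0) :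
    Cl k {z | z ∈ D ∧ z.2 ∈ S ∧ F z = 0} := by
  cases k with
  | zero => exact eq_empty_of_forall_notMem fun z hz => eq_empty_iff_forall_notMem.1 h _ hz.2.1
  | succ k =>
    obtain ⟨Ω, g, h1, h2, h3⟩ := h
    have a : ∀ l (q : ℂ × Cm k), q.2 ∈ Ω l → AnalyticAt ℂ (fun q : ℂ × Cm k => (q.1, g l q.2)) q :=
      fun l q hq => analyticAt_fst.prod ((h2 l _ hq).comp analyticAt_snd)
    have o : ∀ l, IsOpen {q : ℂ × Cm k | q.2 ∈ Ω l ∧ (q.1, g l q.2) ∈ D} := fun l =>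
      isOpen_iff_eventually.2 fun q hq => (((h1 l).preimage continuous_snd).eventually_mem
        hq.1).and ((a l q hq.1).continuousAt.eventually (hD.mem_nhds hq.2))
    refine (cl_iUnion fun l => (cl_zs (k := k + 1) (J := fun q => F (q.1, g l q.2)) (o l)
      (fun q hq => (hF _ hq.2).comp_of_eq (a l q hq.1) rfl) (fun q hq e => hne _ hq.2
        ((Continuous.prodMk_left q.2).continuousAt.eventually e)) (by simp [add_comm])).image (o l)
      (fun _ c => c.1) fun q hq => a l q hq.1).mono fun z hz => ?_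
    obtain ⟨l, p, hp, e⟩ := mem_iUnion.1 (h3 hz.2.1)
    exact mem_iUnion.2 ⟨l, (z.1, p), ⟨⟨hp, e ▸ hz.1⟩, e ▸ hz.2.2⟩, Prod.ext rfl e⟩

theorem LC.lift {F : ℂ × E → ℂ} (hF : AnalyticAt ℂ F 0) (hr : Reg F) (h : LC k 0 S) :
    LC k 0 {z : ℂ × E | z.2 ∈ S ∧ F z = 0} := by
  obtain ⟨N, a, b⟩ := h
  obtain ⟨r, h0, hb⟩ := Metric.eventually_nhds_iff_ball.1 hF.eventually_analyticAt
  have m : ∀ {s : ℂ} {y : E}, s ∈ ball 0 r → y ∈ ball 0 r → (s, y) ∈ ball (0 : ℂ × E) r :=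
    fun c d => by rw [← Prod.mk_zero_zero, ← ball_prod_same]; exact ⟨c, d⟩
  obtain ⟨t, h1, h2⟩ : ∃ t ∈ ball (0 : ℂ) r, F (t, 0) ≠ 0 := by
    by_contra! c
    exact hr (eventually_of_mem (ball_mem_nhds 0 h0) c)
  obtain ⟨U, h3, h4, h5⟩ := _root_.mem_nhds_iff.1 ((((hb _ (m h1 (mem_ball_self h0))).continuousAt.comp
    (f := fun y : E => (t, y)) (Continuous.prodMk_right t).continuousAt).eventually_ne h2).and
      (ball_mem_nhds 0 h0))
  refine ⟨ball 0 r ×ˢ (U ∩ N), prod_mem_nhds (ball_mem_nhds _ h0) (inter_mem (h4.mem_nhds h5) a),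
    (b.lift (isOpen_ball.prod h4) (fun z hz => hb _ (m hz.1 (h3 hz.2).2)) fun z hz e =>
      (h3 hz.2).1 ?_).mono fun z c => ⟨⟨c.1.1, c.1.2.1⟩, ⟨c.1.2.2, c.2.1⟩, c.2.2⟩⟩
  exact AnalyticOnNhd.eqOn_zero_of_preconnected_of_eventuallyEq_zero (f := fun s => F (s, z.2))
    (fun s hs => (hb _ (m hs (h3 hz.2).2)).comp_of_eq (analyticAt_id.prod analyticAt_const) rfl)
    (convex_ball _ _).isPreconnected hz.1 e h1

variable (E) in
/-- proper analytic subsets of prime germs have smaller dimension -/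
def DimP : Prop :=
  ∀ (ι : Type) [Fintype ι] (x : E) (h : ι → E → ℂ), Pr x h → ∀ (k : ℕ) (δ f : E → ℂ),
    AnalyticAt ℂ δ x → ¬ In x h δ → AnalyticAt ℂ f x → ¬ In x h f →
    LC (k + 1) x (Zs h ∩ {y | δ y ≠ 0}) → LC k x (Zs h ∩ {y | f y = 0})

theorem dim_step {ι : Type} [Fintype ι] {h : ι → ℂ × E → ℂ} {h' : Fin m → E → ℂ} {d : ℕ}
    {g : E → ℂ[X]} (IH : DimP E) (T : Tri E h h' d g) {i : ι} (ha : AnalyticAt ℂ (h i) 0)
    (hr : Reg (h i)) {δ f : ℂ × E → ℂ} (hδ : AnalyticAt ℂ δ 0) (nδ : ¬ In 0 h δ)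
    (hf : AnalyticAt ℂ f 0) (nf : ¬ In 0 h f) (H : LC (k + 1) 0 (Zs h ∩ {y | δ y ≠ 0})) :
    LC k 0 (Zs h ∩ {y | f y = 0}) := by
  obtain ⟨r, a1, a2, a3⟩ := T.norm δ hδ nδ
  obtain ⟨s, b1, b2, b3⟩ := T.norm f hf nf
  obtain ⟨N, c1, c2⟩ := H
  obtain ⟨ε, hε, c3⟩ := Nug.pick (y := 0) ((Nug.key T).and (Eventually.and c1 a3.van))
  refine ((IH _ 0 h' T.pr k _ s ((T.pfg.ana d).fun_mul a1)
    (fun c => (T.pr.mul _ _ (T.pfg.ana d) a1 c).elim T.lead a2) b1 b2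
    ⟨_, c3.and (T.small ε hε), (c2.image isOpen_univ (subset_univ _)
      fun _ _ => analyticAt_snd).mono ?_⟩).lift ha hr).mono ?_
  · rintro y ⟨⟨d1, d2⟩, d3, d4⟩
    obtain ⟨d5, d6⟩ := mul_ne_zero_iff.1 d4
    obtain ⟨t, ht⟩ := Complex.exists_root (f := g y)
      (natDegree_pos_iff_degree_pos.1 (T.pos.trans_le (le_natDegree_of_ne_zero d5)))
    obtain ⟨k1, k2, k3⟩ := d1 t (d2 d3 d5 t ht)
    exact ⟨(t, y), ⟨k2, k1 ht d3 d5, fun e => d6 (k3 (Option.forall.2 ⟨e, k1 ht d3 d5⟩))⟩, rfl⟩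
  · filter_upwards [b3.van, eventually_all.2 fun j => (T.up j).van] with z d1 d2 d3
    exact ⟨⟨fun j => d2 j d3.1, d1 (Option.forall.2 ⟨d3.2, d3.1⟩)⟩, d3.1 i⟩

theorem dimP : All DimP := Nug.ind fun E _ _ _ IH ι _ x h hP k δ f hδ nδ hf nf H => by
  have z : ∀ {u : E → ℂ}, ¬ In x h u → ¬ ∀ᶠ y in 𝓝 x, u y = 0 := fun n c =>
    n ((In.zero x h).congr (c.mono fun _ e => e.symm))
  by_cases c : ∀ i, ∀ᶠ y in 𝓝 x, h i y = 0
  · obtain ⟨y, a1, a2, a3, a4⟩ := ((not_eventually.1 (z nδ)).and_eventually (H.near.and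
      ((eventually_all.2 c).eventually_nhds.and hδ.eventually_analyticAt))).exists
    exact ((lc_zero hf (z nf)).le (a2.rank (a3.and (a4.continuousAt.eventually_ne a1)))).mono
      (.of_forall fun _ e => e.2)
  obtain ⟨i, hi⟩ := not_forall.1 c
  obtain ⟨q, L, e, hr⟩ := exists_reg (hP.ana i) (by
    by_contra k'
    exact hP.one (In.of_unit ((In.self x h i).congr (.of_forall fun y => (mul_one _).symm))
      (hP.ana i) k')) hi
  obtain ⟨m, h', d, g, T⟩ := pst_all q ι _ (hP.aff x L) i hr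
  have a : ∀ {u : E → ℂ}, AnalyticAt ℂ u x → AnalyticAt ℂ (fun w => u (aff x L w)) 0 := fun c =>
    c.comp_of_eq (ana_aff x L 0) (aff_zero x L)
  have b : ∀ {u : E → ℂ}, ¬ In x h u → ¬ In 0 (fun i w => h i (aff x L w)) fun w => u (aff x L w) :=
    fun n c => n (aff_zero x L ▸ (in_aff x L 0).1 c)
  have := dim_step (k := k) (IH q e) T (a (hP.ana i)) hr (a hδ) (b nδ) (a hf) (b nf)
    (LC.pre (Φ := aff x L) (ana_aff x L 0).continuousAt (ana_affi x L _) (.of_forall (affi_aff x L))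
      ((aff_zero x L).symm ▸ H))
  exact (LC.pre (ana_affi x L x).continuousAt (ana_aff x L _) (.of_forall (aff_affi x L))
    ((affi_self x L).symm ▸ this)).mono (.of_forall fun y c => by simpa [Zs] using c)

/-- the bad set of dimension `k` has smaller dimension -/
theorem lc_bad [FiniteDimensional ℂ E] {A : Set E} {ι : Type} [Finite ι] {d : ι → ℕ}
    {B : ι → Set E} (hA : AnE A x) (hB : ∀ i, AnE (B i) x)
    (cov : ∀ᶠ y in 𝓝 x, y ∈ A → ∃ i, y ∈ closure (A \ B i))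
    (man : ∀ i, ∀ᶠ y in 𝓝 x, y ∈ A \ B i → LC (d i + 1) y (A \ B i) ∧ (LC (k + 1) y A → d i ≤ k))
    (H : LC (k + 1) x A) (hT : ∀ i, d i = k → T ⊆ B i) : LC k x (A ∩ T) := by
  classical
  obtain ⟨m, h, hh, e⟩ := hA
  have hfin : Finite (idl x h).minimalPrimes :=
    (Ideal.finite_minimalPrimes_of_isNoetherianRing _ (hR := noe E) (idl x h)).to_subtype
  have := Fintype.ofFinite (idl x h).minimalPrimes
  choose n g hg eg using fun P : (idl x h).minimalPrimes =>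
    exists_idl x ((noe E).noetherian P.1)
  have pr : ∀ P, Pr x (g P) := fun P => (pr_iff (hg P)).2 (eg P ▸ P.2.1.1)
  have sub : ∀ P, ∀ᶠ y in 𝓝 x, y ∈ Zs (g P) → y ∈ A := fun P => by
    filter_upwards [CarAux.sub_zs hh (hg P) (eg P ▸ P.2.1.2), e] with y a b c using b.2 (a c)
  have rad : ∀ u, AnalyticAt ℂ u x → (∀ P, In x (g P) u) → Van x A u := fun u hu a => by
    obtain ⟨N, hN⟩ : gm x u ∈ (idl x h).radical := by
      rw [← Ideal.sInf_minimalPrimes, Submodule.mem_sInf]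
      exact fun P hP => by simpa only [eg] using (in_iff (hg ⟨P, hP⟩) hu).1 (a ⟨P, hP⟩)
    filter_upwards [((in_iff hh (hu.fun_pow N)).2 (by rwa [gm_pow hu])).van, e] with y b c d
    exact (pow_eq_zero_iff'.1 (b (c.1 d))).1
  have un : ∀ᶠ y in 𝓝 x, y ∈ A → ∃ P, y ∈ Zs (g P) := by
    filter_upwards [eventually_all.2 fun j : ∀ P, Fin (n P) => rad (fun y => ∏ P, g P (j P) y)
      (Finset.analyticAt_fun_prod _ fun P _ => hg P _) fun P => ((In.self x (g P) (j P)).mul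
        (Finset.analyticAt_fun_prod (Finset.univ.erase P) fun Q _ => hg Q (j Q))).congr
          (.of_forall fun y => Finset.prod_erase_mul _ _ (Finset.mem_univ P))] with y a b
    by_contra! c
    choose j hj using fun P => not_forall.1 (c P)
    exact Finset.prod_ne_zero_iff.2 (fun P _ => hj P) (a j b)
  refine (lc_iUnion (T := fun P => Zs (g P) ∩ T) fun P => ?_).mono (un.mono fun y a b =>
    let ⟨P, c⟩ := a b.1; mem_iUnion.2 ⟨P, c, b.2⟩)
  have oth : ∀ Q : {Q // Q ≠ P}, ∃ j, ¬ In x (g P) (g Q j) := fun Q => by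
    by_contra! c
    have le : Q.1.1 ≤ P.1 := by
      rw [← eg, ← eg P, idl, Ideal.span_le]
      rintro _ ⟨j, rfl⟩
      exact (in_iff (hg P) (hg Q j)).1 (c j)
    exact Q.2 (Subtype.ext (le_antisymm le (P.2.2 Q.1.2.1 le)))
  choose j hj using oth
  have wa := Finset.analyticAt_fun_prod Finset.univ fun (Q : {Q // Q ≠ P}) _ => hg Q (j Q)
  obtain ⟨i, hi⟩ : ∃ i, ¬ ∀ᶠ y in 𝓝 x, y ∈ Zs (g P) → y ∈ B i := by
    by_contra! c
    have k1 := (in_iff (hg P) wa).1 (nulP_all' E _ x _ (pr P) _ wa (by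
      filter_upwards [sub P, cov, (un.and (eventually_all.2 c)).eventually_nhds,
        wa.eventually_analyticAt] with y a b c d e
      obtain ⟨i, k⟩ := b (a e)
      by_contra k'
      obtain ⟨z, k1, k2, k3, k4⟩ := ((mem_closure_iff_frequently.1 k).and_eventually
        ((d.continuousAt.eventually_ne k').and c)).exists
      obtain ⟨Q, k5⟩ := k3 k1.1
      by_cases k6 : Q = P
      · exact k1.2 (k4 i (k6 ▸ k5))
      · exact k2 (Finset.prod_eq_zero (Finset.mem_univ ⟨Q, k6⟩) (k5 _))))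
    have := (pr_iff (hg P)).1 (pr P)
    rw [gm_prod _ fun Q : {Q // Q ≠ P} => hg Q (j Q), Ideal.IsPrime.prod_mem_iff] at k1
    obtain ⟨Q, -, k2⟩ := k1
    exact hj Q ((in_iff (hg P) (hg Q _)).2 k2)
  obtain ⟨m', u, hu, e'⟩ := hB i
  obtain ⟨l, hl⟩ : ∃ l, ¬ Van x (Zs (g P)) (u l) := by
    by_contra! c
    exact hi (by filter_upwards [eventually_all.2 c, e'] with y a b c using b.2 fun l => a l c)
  have h1 := dimP E _ x _ (pr P) k _ _ analyticAt_const (pr P).one (hu l) (fun c => hl c.van)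
    (H.mono ((sub P).mono fun y a b => a b.1))
  obtain ⟨y, a1, a2, a3, a4, a5⟩ := ((not_eventually.1 hl).and_eventually
    ((sub P).and (e'.and ((man i).and H.near)))).exists
  rcases ((a4 ⟨a2 (Classical.not_imp.1 a1).1, fun c => (Classical.not_imp.1 a1).2 (a3.1 c l)⟩).2 a5).eq_or_lt with c | c
  · exact h1.mono (e'.mono fun y a b => ⟨b.1, a.1 (hT i c b.2) l⟩)
  · refine (h1.union ((lc_of_near ((man i).mono fun y a b => (a b).1)).le c)).mono ?_
    filter_upwards [sub P, e'] with y a b c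
    by_cases k : u l y = 0
    exacts [.inl ⟨c.1, k⟩, .inr ⟨a c.1, fun k' => k (b.1 k' l)⟩]

end Vale.Agent.P275DP
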